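import Vale.Agent.H71.Clique63.Sound
import Vale.Agent.H71.Clique63.Tree

/-!
# Kernel evaluation of the clique search: lowest vertices 0 to 11
-/

namespace Vale.Agent.H71.Clique63

/-- No clique of size six with lowest vertex `k`, `0 ≤ k < 3`, among the first 321 vertices. -/
theorem chunk_0_3 : walkTop (noClq tree 5) tree (rangeSel 0 3) = true := by decide +kernel

/-- No clique of size six with lowest vertex `k`, `3 ≤ k < 6`, among the first 321 vertices. -/
theorem chunk_3_3 : walkTop (noClq tree 5) tree (rangeSel 3 3) = true := by decide +kernel

/-- No clique of size six with lowest vertex `k`, `6 ≤ k < 9`, among the first 321 vertices. -/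
theorem chunk_6_3 : walkTop (noClq tree 5) tree (rangeSel 6 3) = true := by decide +kernel

/-- No clique of size six with lowest vertex `k`, `9 ≤ k < 12`, among the first 321 vertices. -/
theorem chunk_9_3 : walkTop (noClq tree 5) tree (rangeSel 9 3) = true := by decide +kernel

end Vale.Agent.H71.Clique63
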