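import Vale.Agent.H71.Clique63.Sound
import Vale.Agent.H71.Clique63.Tree

/-!
# Kernel evaluation of the clique search: lowest vertices 12 to 24
-/

namespace Vale.Agent.H71.Clique63

/-- No clique of size six with lowest vertex `k`, `12 ≤ k < 15`, among the first 321 vertices. -/
theorem chunk_12_3 : walkTop (noClq tree 5) tree (rangeSel 12 3) = true := by decide +kernel

/-- No clique of size six with lowest vertex `k`, `15 ≤ k < 18`, among the first 321 vertices. -/
theorem chunk_15_3 : walkTop (noClq tree 5) tree (rangeSel 15 3) = true := by decide +kernel

/-- No clique of size six with lowest vertex `k`, `18 ≤ k < 21`, among the first 321 vertices. -/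
theorem chunk_18_3 : walkTop (noClq tree 5) tree (rangeSel 18 3) = true := by decide +kernel

/-- No clique of size six with lowest vertex `k`, `21 ≤ k < 25`, among the first 321 vertices. -/
theorem chunk_21_4 : walkTop (noClq tree 5) tree (rangeSel 21 4) = true := by decide +kernel

end Vale.Agent.H71.Clique63
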