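import Vale.Agent.H71.Clique63.Sound
import Vale.Agent.H71.Clique63.Tree

/-!
# Kernel evaluation of the clique search: lowest vertices 25 to 41
-/

namespace Vale.Agent.H71.Clique63

/-- No clique of size six with lowest vertex `k`, `25 ≤ k < 29`, among the first 321 vertices. -/
theorem chunk_25_4 : walkTop (noClq tree 5) tree (rangeSel 25 4) = true := by decide +kernel

/-- No clique of size six with lowest vertex `k`, `29 ≤ k < 33`, among the first 321 vertices. -/
theorem chunk_29_4 : walkTop (noClq tree 5) tree (rangeSel 29 4) = true := by decide +kernel

/-- No clique of size six with lowest vertex `k`, `33 ≤ k < 37`, among the first 321 vertices. -/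
theorem chunk_33_4 : walkTop (noClq tree 5) tree (rangeSel 33 4) = true := by decide +kernel

/-- No clique of size six with lowest vertex `k`, `37 ≤ k < 42`, among the first 321 vertices. -/
theorem chunk_37_5 : walkTop (noClq tree 5) tree (rangeSel 37 5) = true := by decide +kernel

end Vale.Agent.H71.Clique63
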