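import Vale.Agent.H71.Clique63.Sound
import Vale.Agent.H71.Clique63.Tree

/-!
# Kernel evaluation of the clique search: lowest vertices 42 to 61
-/

namespace Vale.Agent.H71.Clique63

/-- No clique of size six with lowest vertex `k`, `42 ≤ k < 47`, among the first 321 vertices. -/
theorem chunk_42_5 : walkTop (noClq tree 5) tree (rangeSel 42 5) = true := by decide +kernel

/-- No clique of size six with lowest vertex `k`, `47 ≤ k < 52`, among the first 321 vertices. -/
theorem chunk_47_5 : walkTop (noClq tree 5) tree (rangeSel 47 5) = true := by decide +kernel

/-- No clique of size six with lowest vertex `k`, `52 ≤ k < 57`, among the first 321 vertices. -/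
theorem chunk_52_5 : walkTop (noClq tree 5) tree (rangeSel 52 5) = true := by decide +kernel

/-- No clique of size six with lowest vertex `k`, `57 ≤ k < 62`, among the first 321 vertices. -/
theorem chunk_57_5 : walkTop (noClq tree 5) tree (rangeSel 57 5) = true := by decide +kernel

end Vale.Agent.H71.Clique63
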