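import Vale.Agent.H71.Clique63.Sound
import Vale.Agent.H71.Clique63.Tree

/-!
# Kernel evaluation of the clique search: lowest vertices 62 to 88
-/

namespace Vale.Agent.H71.Clique63

/-- No clique of size six with lowest vertex `k`, `62 ≤ k < 68`, among the first 321 vertices. -/
theorem chunk_62_6 : walkTop (noClq tree 5) tree (rangeSel 62 6) = true := by decide +kernel

/-- No clique of size six with lowest vertex `k`, `68 ≤ k < 74`, among the first 321 vertices. -/
theorem chunk_68_6 : walkTop (noClq tree 5) tree (rangeSel 68 6) = true := by decide +kernel

/-- No clique of size six with lowest vertex `k`, `74 ≤ k < 81`, among the first 321 vertices. -/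
theorem chunk_74_7 : walkTop (noClq tree 5) tree (rangeSel 74 7) = true := by decide +kernel

/-- No clique of size six with lowest vertex `k`, `81 ≤ k < 89`, among the first 321 vertices. -/
theorem chunk_81_8 : walkTop (noClq tree 5) tree (rangeSel 81 8) = true := by decide +kernel

end Vale.Agent.H71.Clique63
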