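import Vale.Agent.H71.Clique63.Sound
import Vale.Agent.H71.Clique63.Tree

/-!
# Kernel evaluation of the clique search: lowest vertices 89 to 120
-/

namespace Vale.Agent.H71.Clique63

/-- No clique of size six with lowest vertex `k`, `89 ≤ k < 96`, among the first 321 vertices. -/
theorem chunk_89_7 : walkTop (noClq tree 5) tree (rangeSel 89 7) = true := by decide +kernel

/-- No clique of size six with lowest vertex `k`, `96 ≤ k < 103`, among the first 321 vertices. -/
theorem chunk_96_7 : walkTop (noClq tree 5) tree (rangeSel 96 7) = true := by decide +kernel

/-- No clique of size six with lowest vertex `k`, `103 ≤ k < 111`, among the first 321 vertices. -/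
theorem chunk_103_8 : walkTop (noClq tree 5) tree (rangeSel 103 8) = true := by decide +kernel

/-- No clique of size six with lowest vertex `k`, `111 ≤ k < 121`, among the first 321 vertices. -/
theorem chunk_111_10 : walkTop (noClq tree 5) tree (rangeSel 111 10) = true := by decide +kernel

end Vale.Agent.H71.Clique63
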