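import Vale.Agent.H71.Clique63.Sound
import Vale.Agent.H71.Clique63.Tree

/-!
# Kernel evaluation of the clique search: lowest vertices 121 to 188
-/

namespace Vale.Agent.H71.Clique63

/-- No clique of size six with lowest vertex `k`, `121 ≤ k < 132`, among the first 321 vertices. -/
theorem chunk_121_11 : walkTop (noClq tree 5) tree (rangeSel 121 11) = true := by decide +kernel

/-- No clique of size six with lowest vertex `k`, `132 ≤ k < 142`, among the first 321 vertices. -/
theorem chunk_132_10 : walkTop (noClq tree 5) tree (rangeSel 132 10) = true := by decide +kernel

/-- No clique of size six with lowest vertex `k`, `142 ≤ k < 160`, among the first 321 vertices. -/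
theorem chunk_142_18 : walkTop (noClq tree 5) tree (rangeSel 142 18) = true := by decide +kernel

/-- No clique of size six with lowest vertex `k`, `160 ≤ k < 189`, among the first 321 vertices. -/
theorem chunk_160_29 : walkTop (noClq tree 5) tree (rangeSel 160 29) = true := by decide +kernel

end Vale.Agent.H71.Clique63
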