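import Vale.Agent.H71.Clique63.Sound
import Vale.Agent.H71.Clique63.Tree

/-!
# Kernel evaluation of the clique search: lowest vertices 189 to 320
-/

namespace Vale.Agent.H71.Clique63

/-- No clique of size six with lowest vertex `k`, `189 ≤ k < 276`, among the first 321 vertices. -/
theorem chunk_189_87 : walkTop (noClq tree 5) tree (rangeSel 189 87) = true := by decide +kernel

/-- No clique of size six with lowest vertex `k`, `276 ≤ k < 321`, among the first 321 vertices. -/
theorem chunk_276_45 : walkTop (noClq tree 5) tree (rangeSel 276 45) = true := by decide +kernel

end Vale.Agent.H71.Clique63
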