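import Vale.Agent.H14.Borsuk63.Data

/-!
# A kernel-checkable clique search on the first 321 vertices (P052)

Bit-mask search with a literal binary tree of the vertices.  Only the bits `adj u v` with
`u < v` are used.  The vertex `k` is the bit `32 + k` of a mask; the low 32 bits are ignored.
The functions are written with recursors so that kernel evaluation is fast.
-/

namespace Vale.Agent.H71.Clique63

open Vale.Agent.H14.Borsuk63

/-- A binary tree of vertices.  `leaf k b up`: the vertex `k`, a mask `b` containing the bit of
`k` and a mask `up` containing the bits of its higher neighbours.  `node m l r`: `m` is a mask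
containing the bits of all vertices below. -/
inductive Tr where
  | leaf (k b up : ℕ) : Tr
  | node (m : ℕ) (l r : Tr) : Tr

/-- Runs `g (cand ∩ up k)` for all vertices `k` of the tree that lie in the mask `cand`. -/
noncomputable def walk (g : ℕ → Bool) (t : Tr) : ℕ → Bool :=
  Tr.rec (motive := fun _ => ℕ → Bool)
    (fun _ b up cand =>
      Nat.rec (motive := fun _ => Bool) true (fun _ _ => g (Nat.land cand up)) (Nat.land cand b))
    (fun m _ _ wl wr cand =>
      Nat.rec (motive := fun _ => Bool) true
        (fun _ _ => Bool.rec (motive := fun _ => Bool) false (wr cand) (wl cand))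
        (Nat.land cand m))
    t

/-- Runs `g (up k)` for all vertices `k` of the tree that lie in the mask `sel`. -/
noncomputable def walkTop (g : ℕ → Bool) (t : Tr) : ℕ → Bool :=
  Tr.rec (motive := fun _ => ℕ → Bool)
    (fun _ b up sel =>
      Nat.rec (motive := fun _ => Bool) true (fun _ _ => g up) (Nat.land sel b))
    (fun m _ _ wl wr sel =>
      Nat.rec (motive := fun _ => Bool) true
        (fun _ _ => Bool.rec (motive := fun _ => Bool) false (wr sel) (wl sel))
        (Nat.land sel m))
    t

/-- `few j y = true` certifies that `y` has at most `j` set bits. -/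
noncomputable def few (j : ℕ) : ℕ → Bool :=
  Nat.rec (motive := fun _ => ℕ → Bool) (fun y => Nat.beq y 0)
    (fun _ ih y =>
      Bool.rec (motive := fun _ => Bool) (ih (Nat.land y (Nat.sub y 1))) true (Nat.beq y 0))
    j

/-- `noClq T d cand = true` certifies that the mask `cand` contains no `d` vertices
`v₁ < ... < v_d` of the tree `T` with `vⱼ` in `up vᵢ` for all `i < j`. -/
noncomputable def noClq (T : Tr) (d : ℕ) : ℕ → Bool :=
  Nat.rec (motive := fun _ => ℕ → Bool) (fun _ => false)
    (fun d' ih cand =>
      Bool.rec (motive := fun _ => Bool) (walk ih T cand) true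
        (few d' (Nat.shiftRight cand 32)))
    d

end Vale.Agent.H71.Clique63
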