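import Vale.Agent.H71.Clique63.Valid
import Vale.Agent.H71.Clique63.Chunk00
import Vale.Agent.H71.Clique63.Chunk01
import Vale.Agent.H71.Clique63.Chunk02
import Vale.Agent.H71.Clique63.Chunk03
import Vale.Agent.H71.Clique63.Chunk04
import Vale.Agent.H71.Clique63.Chunk05
import Vale.Agent.H71.Clique63.Chunk06
import Vale.Agent.H71.Clique63.Chunk07

/-!
# No clique of size six among the first 321 vertices (P052, task CLIQUE)
-/

namespace Vale.Agent.H71

open Vale.Agent.H14.Borsuk63 Vale.Agent.H71.Clique63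

theorem no_six_clique : ∀ s : Finset ℕ, (∀ v ∈ s, v < 321) →
    (∀ u ∈ s, ∀ v ∈ s, u < v → adj u v = true) → s.card ≤ 5 := by
  refine no_six_clique_of_checks tree tree_ok tree_good ?_
  intro k hk
  by_cases h0 : k < 3
  · exact ⟨_, chunk_0_3, rangeSel_testBit 0 3 k (by omega) (by omega)⟩
  by_cases h1 : k < 6
  · exact ⟨_, chunk_3_3, rangeSel_testBit 3 3 k (by omega) (by omega)⟩
  by_cases h2 : k < 9
  · exact ⟨_, chunk_6_3, rangeSel_testBit 6 3 k (by omega) (by omega)⟩
  by_cases h3 : k < 12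
  · exact ⟨_, chunk_9_3, rangeSel_testBit 9 3 k (by omega) (by omega)⟩
  by_cases h4 : k < 15
  · exact ⟨_, chunk_12_3, rangeSel_testBit 12 3 k (by omega) (by omega)⟩
  by_cases h5 : k < 18
  · exact ⟨_, chunk_15_3, rangeSel_testBit 15 3 k (by omega) (by omega)⟩
  by_cases h6 : k < 21
  · exact ⟨_, chunk_18_3, rangeSel_testBit 18 3 k (by omega) (by omega)⟩
  by_cases h7 : k < 25
  · exact ⟨_, chunk_21_4, rangeSel_testBit 21 4 k (by omega) (by omega)⟩
  by_cases h8 : k < 29
  · exact ⟨_, chunk_25_4, rangeSel_testBit 25 4 k (by omega) (by omega)⟩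
  by_cases h9 : k < 33
  · exact ⟨_, chunk_29_4, rangeSel_testBit 29 4 k (by omega) (by omega)⟩
  by_cases h10 : k < 37
  · exact ⟨_, chunk_33_4, rangeSel_testBit 33 4 k (by omega) (by omega)⟩
  by_cases h11 : k < 42
  · exact ⟨_, chunk_37_5, rangeSel_testBit 37 5 k (by omega) (by omega)⟩
  by_cases h12 : k < 47
  · exact ⟨_, chunk_42_5, rangeSel_testBit 42 5 k (by omega) (by omega)⟩
  by_cases h13 : k < 52
  · exact ⟨_, chunk_47_5, rangeSel_testBit 47 5 k (by omega) (by omega)⟩
  by_cases h14 : k < 57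
  · exact ⟨_, chunk_52_5, rangeSel_testBit 52 5 k (by omega) (by omega)⟩
  by_cases h15 : k < 62
  · exact ⟨_, chunk_57_5, rangeSel_testBit 57 5 k (by omega) (by omega)⟩
  by_cases h16 : k < 68
  · exact ⟨_, chunk_62_6, rangeSel_testBit 62 6 k (by omega) (by omega)⟩
  by_cases h17 : k < 74
  · exact ⟨_, chunk_68_6, rangeSel_testBit 68 6 k (by omega) (by omega)⟩
  by_cases h18 : k < 81
  · exact ⟨_, chunk_74_7, rangeSel_testBit 74 7 k (by omega) (by omega)⟩
  by_cases h19 : k < 89
  · exact ⟨_, chunk_81_8, rangeSel_testBit 81 8 k (by omega) (by omega)⟩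
  by_cases h20 : k < 96
  · exact ⟨_, chunk_89_7, rangeSel_testBit 89 7 k (by omega) (by omega)⟩
  by_cases h21 : k < 103
  · exact ⟨_, chunk_96_7, rangeSel_testBit 96 7 k (by omega) (by omega)⟩
  by_cases h22 : k < 111
  · exact ⟨_, chunk_103_8, rangeSel_testBit 103 8 k (by omega) (by omega)⟩
  by_cases h23 : k < 121
  · exact ⟨_, chunk_111_10, rangeSel_testBit 111 10 k (by omega) (by omega)⟩
  by_cases h24 : k < 132
  · exact ⟨_, chunk_121_11, rangeSel_testBit 121 11 k (by omega) (by omega)⟩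
  by_cases h25 : k < 142
  · exact ⟨_, chunk_132_10, rangeSel_testBit 132 10 k (by omega) (by omega)⟩
  by_cases h26 : k < 160
  · exact ⟨_, chunk_142_18, rangeSel_testBit 142 18 k (by omega) (by omega)⟩
  by_cases h27 : k < 189
  · exact ⟨_, chunk_160_29, rangeSel_testBit 160 29 k (by omega) (by omega)⟩
  by_cases h28 : k < 276
  · exact ⟨_, chunk_189_87, rangeSel_testBit 189 87 k (by omega) (by omega)⟩
  exact ⟨_, chunk_276_45, rangeSel_testBit 276 45 k (by omega) (by omega)⟩

end Vale.Agent.H71
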