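import Vale.Agent.H71.Clique63.Defs

/-!
# Soundness of the clique search
-/

namespace Vale.Agent.H71.Clique63

open Vale.Agent.H14.Borsuk63

/-- The pairs `(k, up)` of the leaves of a tree. -/
def leaves : Tr → List (ℕ × ℕ)
  | .leaf k _ up => [(k, up)]
  | .node _ l r => leaves l ++ leaves r

/-- The mask of the vertices of a tree. -/
def cover : Tr → ℕ
  | .leaf k _ _ => 2 ^ (32 + k)
  | .node _ l r => cover l ||| cover r

/-- The consistency check of the masks of a tree. -/
def okB : Tr → Bool
  | .leaf k b _ => Nat.testBit b (32 + k)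
  | .node m l r => okB l && okB r && Nat.beq (Nat.land (cover l ||| cover r) m) (cover l ||| cover r)

/-- The expected mask of the higher neighbours of `i` among the first 321 vertices. -/
def upOf (i : ℕ) : ℕ := (((big >>> (416 * i)) % 2 ^ 321) >>> (i + 1)) <<< (i + 1 + 32)

/-- The check that a list of leaves is the list of the vertices `i, i + 1, ..., 320` with masks
containing the expected masks. -/
def chkLeaves : List (ℕ × ℕ) → ℕ → Bool
  | [], i => Nat.beq i 321
  | p :: l, i => Nat.beq p.1 i && Nat.beq (Nat.land (upOf i) p.2) (upOf i) && chkLeaves l (i + 1)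

theorem nat_rec_const (a b : Bool) (x : ℕ) :
    Nat.rec (motive := fun _ => Bool) a (fun _ _ => b) x = if x = 0 then a else b := by
  cases x <;> rfl

theorem bool_rec_and (x y : Bool) :
    Bool.rec (motive := fun _ => Bool) false y x = (x && y) := by
  cases x <;> rfl

theorem walk_leaf (g : ℕ → Bool) (k b up cand : ℕ) :
    walk g (.leaf k b up) cand = if Nat.land cand b = 0 then true else g (Nat.land cand up) :=
  nat_rec_const _ _ _

theorem walk_node (g : ℕ → Bool) (m : ℕ) (l r : Tr) (cand : ℕ) :
    walk g (.node m l r) cand =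
      if Nat.land cand m = 0 then true else (walk g l cand && walk g r cand) := by
  rw [← bool_rec_and]
  exact nat_rec_const _ _ _

theorem walkTop_leaf (g : ℕ → Bool) (k b up sel : ℕ) :
    walkTop g (.leaf k b up) sel = if Nat.land sel b = 0 then true else g up :=
  nat_rec_const _ _ _

theorem walkTop_node (g : ℕ → Bool) (m : ℕ) (l r : Tr) (sel : ℕ) :
    walkTop g (.node m l r) sel =
      if Nat.land sel m = 0 then true else (walkTop g l sel && walkTop g r sel) := by
  rw [← bool_rec_and]
  exact nat_rec_const _ _ _

theorem testBit_of_land_eq {x m : ℕ} (h : Nat.land x m = x) {i : ℕ} (hi : x.testBit i = true) :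
    m.testBit i = true := by
  have : (Nat.land x m).testBit i = true := by rw [h]; exact hi
  have h2 : (x &&& m).testBit i = true := this
  rw [Nat.testBit_and] at h2
  simp only [Bool.and_eq_true] at h2
  exact h2.2

theorem land_ne_zero_of_testBit {x m : ℕ} {i : ℕ} (hx : x.testBit i = true)
    (hm : m.testBit i = true) : Nat.land x m ≠ 0 := by
  intro h
  have h2 : (x &&& m).testBit i = true := by
    rw [Nat.testBit_and, hx, hm]; rfl
  have h3 : (x &&& m) = 0 := h
  rw [h3] at h2
  simp at h2

theorem cover_testBit (t : Tr) : ∀ p ∈ leaves t, (cover t).testBit (32 + p.1) = true := by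
  induction t with
  | leaf k b up =>
    intro p hp
    simp only [leaves, List.mem_singleton] at hp
    subst hp
    simp [cover]
  | node m l r ihl ihr =>
    intro p hp
    simp only [leaves, List.mem_append] at hp
    simp only [cover, Nat.testBit_or, Bool.or_eq_true]
    rcases hp with hp | hp
    · exact Or.inl (ihl p hp)
    · exact Or.inr (ihr p hp)

theorem walk_sound (g : ℕ → Bool) (t : Tr) (ht : okB t = true) (cand : ℕ)
    (hw : walk g t cand = true) :
    ∀ p ∈ leaves t, cand.testBit (32 + p.1) = true → g (Nat.land cand p.2) = true := by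
  induction t with
  | leaf k b up =>
    intro p hp hbit
    simp only [leaves, List.mem_singleton] at hp
    subst hp
    simp only [okB] at ht
    rw [walk_leaf] at hw
    rw [if_neg (land_ne_zero_of_testBit hbit ht)] at hw
    exact hw
  | node m l r ihl ihr =>
    intro p hp hbit
    simp only [okB, Bool.and_eq_true] at ht
    obtain ⟨⟨hl, hr⟩, hm⟩ := ht
    have hm' : Nat.land (cover l ||| cover r) m = (cover l ||| cover r) := Nat.eq_of_beq_eq_true hm
    have hcov : (cover (.node m l r)).testBit (32 + p.1) = true := cover_testBit _ p hp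
    have hmb : m.testBit (32 + p.1) = true := testBit_of_land_eq hm' hcov
    rw [walk_node] at hw
    rw [if_neg (land_ne_zero_of_testBit hbit hmb)] at hw
    simp only [Bool.and_eq_true] at hw
    simp only [leaves, List.mem_append] at hp
    rcases hp with hp | hp
    · exact ihl hl hw.1 p hp hbit
    · exact ihr hr hw.2 p hp hbit

theorem walkTop_sound (g : ℕ → Bool) (t : Tr) (ht : okB t = true) (sel : ℕ)
    (hw : walkTop g t sel = true) :
    ∀ p ∈ leaves t, sel.testBit (32 + p.1) = true → g p.2 = true := by
  induction t with
  | leaf k b up =>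
    intro p hp hbit
    simp only [leaves, List.mem_singleton] at hp
    subst hp
    simp only [okB] at ht
    rw [walkTop_leaf] at hw
    rw [if_neg (land_ne_zero_of_testBit hbit ht)] at hw
    exact hw
  | node m l r ihl ihr =>
    intro p hp hbit
    simp only [okB, Bool.and_eq_true] at ht
    obtain ⟨⟨hl, hr⟩, hm⟩ := ht
    have hm' : Nat.land (cover l ||| cover r) m = (cover l ||| cover r) := Nat.eq_of_beq_eq_true hm
    have hcov : (cover (.node m l r)).testBit (32 + p.1) = true := cover_testBit _ p hp
    have hmb : m.testBit (32 + p.1) = true := testBit_of_land_eq hm' hcov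
    rw [walkTop_node] at hw
    rw [if_neg (land_ne_zero_of_testBit hbit hmb)] at hw
    simp only [Bool.and_eq_true] at hw
    simp only [leaves, List.mem_append] at hp
    rcases hp with hp | hp
    · exact ihl hl hw.1 p hp hbit
    · exact ihr hr hw.2 p hp hbit

theorem testBit_pred_of_lower (y i j : ℕ) (hij : i < j) (hi : y.testBit i = true)
    (hj : y.testBit j = true) : (y - 1).testBit j = true := by
  have hr : y % 2 ^ j ≠ 0 := by
    intro h0
    have h1 : (y % 2 ^ j).testBit i = true := by
      rw [Nat.testBit_mod_two_pow]
      simp [hij, hi]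
    rw [h0] at h1
    simp at h1
  have hpos : 0 < 2 ^ j := Nat.pos_of_ne_zero (by positivity)
  have hq : (y - 1) / 2 ^ j = y / 2 ^ j := by
    have h1 : y - 1 = 2 ^ j * (y / 2 ^ j) + (y % 2 ^ j - 1) := by
      have := Nat.div_add_mod y (2 ^ j)
      omega
    have h2 : y % 2 ^ j - 1 < 2 ^ j := by
      have := Nat.mod_lt y hpos
      omega
    rw [h1, Nat.mul_add_div hpos, Nat.div_eq_of_lt h2, add_zero]
  rw [Nat.testBit_eq_decide_div_mod_eq] at hj ⊢
  rw [hq]
  exact hj

theorem few_sound (j : ℕ) : ∀ y : ℕ, few j y = true →
    ∀ s : Finset ℕ, (∀ i ∈ s, y.testBit i = true) → s.card ≤ j := by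
  induction j with
  | zero =>
    intro y hy s hs
    have hy0 : y = 0 := Nat.eq_of_beq_eq_true hy
    subst hy0
    have : s = ∅ := by
      rw [Finset.eq_empty_iff_forall_notMem]
      intro i hi
      have := hs i hi
      simp at this
    rw [this]
    simp
  | succ j ih =>
    intro y hy s hs
    rcases Finset.eq_empty_or_nonempty s with hse | hne
    · rw [hse]; simp
    · have hy' : (Nat.beq y 0 || few j (Nat.land y (Nat.sub y 1))) = true := by
        have e : few (j + 1) y = Bool.rec (motive := fun _ => Bool)
            (few j (Nat.land y (Nat.sub y 1))) true (Nat.beq y 0) := rfl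
        rw [e] at hy
        cases hb : Nat.beq y 0
        · rw [hb] at hy
          simpa using hy
        · simp
      rw [Bool.or_eq_true] at hy'
      rcases hy' with hy0 | hy'
      · have hy0' : y = 0 := Nat.eq_of_beq_eq_true hy0
        subst hy0'
        obtain ⟨i, hi⟩ := hne
        have := hs i hi
        simp at this
      · have hmin := Finset.min'_mem s hne
        have hcard := Finset.card_erase_of_mem hmin
        have h2 : (s.erase (s.min' hne)).card ≤ j := by
          refine ih _ hy' _ ?_
          intro i hi
          have hi1 : i ≠ s.min' hne := Finset.ne_of_mem_erase hi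
          have hi2 : i ∈ s := Finset.mem_of_mem_erase hi
          have hlt : s.min' hne < i := lt_of_le_of_ne (Finset.min'_le s i hi2) (Ne.symm hi1)
          have hb := testBit_pred_of_lower y _ i hlt (hs _ hmin) (hs i hi2)
          show (y &&& (y - 1)).testBit i = true
          rw [Nat.testBit_and, hs i hi2, hb]
          rfl
        have hpos : 0 < s.card := Finset.card_pos.2 hne
        omega

/-- The tree contains every vertex below `321` with a mask containing its higher neighbours. -/
def Good (T : Tr) : Prop :=
  ∀ k, k < 321 → ∃ up, (k, up) ∈ leaves T ∧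
    ∀ v, k < v → v < 321 → adj k v = true → up.testBit (32 + v) = true

theorem noClq_zero (T : Tr) (cand : ℕ) : noClq T 0 cand = false := rfl

theorem noClq_succ (T : Tr) (d cand : ℕ) :
    noClq T (d + 1) cand = (few d (Nat.shiftRight cand 32) || walk (noClq T d) T cand) := by
  show Bool.rec (motive := fun _ => Bool) (walk (noClq T d) T cand) true
    (few d (Nat.shiftRight cand 32)) = _
  cases few d (Nat.shiftRight cand 32) <;> rfl

theorem noClq_sound (T : Tr) (hT : okB T = true) (hG : Good T) (d : ℕ) :
    ∀ cand : ℕ, noClq T d cand = true →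
    ∀ s : Finset ℕ, (∀ v ∈ s, v < 321 ∧ cand.testBit (32 + v) = true) →
      (∀ u ∈ s, ∀ v ∈ s, u < v → adj u v = true) → s.card < d := by
  induction d with
  | zero =>
    intro cand h
    rw [noClq_zero] at h
    exact absurd h (by simp)
  | succ d ih =>
    intro cand h s hs hcl
    rw [noClq_succ, Bool.or_eq_true] at h
    rcases h with h | h
    · -- few vertices
      have h1 := few_sound d _ h (s.image (fun v => v)) (by
        intro i hi
        rw [Finset.image_id'] at hi
        have := (hs i hi).2
        show (cand >>> 32).testBit i = true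
        rw [Nat.testBit_shiftRight]
        exact this)
      rw [Finset.image_id'] at h1
      omega
    · rcases Finset.eq_empty_or_nonempty s with hse | hne
      · rw [hse]; simp
      · have hmin := Finset.min'_mem s hne
        obtain ⟨up, hup, hupv⟩ := hG _ (hs _ hmin).1
        have hw := walk_sound (noClq T d) T hT cand h (s.min' hne, up) hup (hs _ hmin).2
        have hcard := Finset.card_erase_of_mem hmin
        have h2 : (s.erase (s.min' hne)).card < d := by
          refine ih _ hw _ ?_ ?_
          · intro v hv
            have hv1 : v ≠ s.min' hne := Finset.ne_of_mem_erase hv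
            have hv2 : v ∈ s := Finset.mem_of_mem_erase hv
            have hlt : s.min' hne < v := lt_of_le_of_ne (Finset.min'_le s v hv2) (Ne.symm hv1)
            refine ⟨(hs v hv2).1, ?_⟩
            show (cand &&& up).testBit (32 + v) = true
            rw [Nat.testBit_and, (hs v hv2).2, hupv v hlt (hs v hv2).1 (hcl _ hmin v hv2 hlt)]
            rfl
          · intro u hu v hv huv
            exact hcl u (Finset.mem_of_mem_erase hu) v (Finset.mem_of_mem_erase hv) huv
        have hpos : 0 < s.card := Finset.card_pos.2 hne
        omega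

theorem upOf_testBit (k v : ℕ) (hkv : k < v) (hv : v < 321) (hadj : adj k v = true) :
    (upOf k).testBit (32 + v) = true := by
  unfold upOf
  unfold adj at hadj
  rw [Nat.testBit_shiftLeft, Nat.testBit_shiftRight, Nat.testBit_mod_two_pow,
    Nat.testBit_shiftRight]
  have e : k + 1 + (32 + v - (k + 1 + 32)) = v := by omega
  rw [e, hadj]
  simp
  omega

theorem chkLeaves_sound : ∀ (l : List (ℕ × ℕ)) (i : ℕ), chkLeaves l i = true →
    ∀ k, i ≤ k → k < 321 → ∃ up, (k, up) ∈ l ∧ Nat.land (upOf k) up = upOf k := by
  intro l
  induction l with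
  | nil =>
    intro i h k hik hk
    have : i = 321 := Nat.eq_of_beq_eq_true h
    omega
  | cons p l ih =>
    intro i h k hik hk
    simp only [chkLeaves, Bool.and_eq_true] at h
    obtain ⟨⟨h1, h2⟩, h3⟩ := h
    have h1' : p.1 = i := Nat.eq_of_beq_eq_true h1
    have h2' : Nat.land (upOf i) p.2 = upOf i := Nat.eq_of_beq_eq_true h2
    rcases Nat.eq_or_lt_of_le hik with hk' | hk'
    · refine ⟨p.2, ?_, ?_⟩
      · rw [← hk', ← h1']
        exact List.mem_cons_self
      · rw [← hk']; exact h2'
    · obtain ⟨up, hup, hup2⟩ := ih (i + 1) h3 k hk' hk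
      exact ⟨up, List.mem_cons_of_mem _ hup, hup2⟩

theorem good_of_chkLeaves (T : Tr) (h : chkLeaves (leaves T) 0 = true) : Good T := by
  intro k hk
  obtain ⟨up, hup, hup2⟩ := chkLeaves_sound _ 0 h k (Nat.zero_le k) hk
  exact ⟨up, hup, fun v hkv hv hadj => testBit_of_land_eq hup2 (upOf_testBit k v hkv hv hadj)⟩

/-- The mask of the vertices `a ≤ k < a + n`. -/
def rangeSel (a n : ℕ) : ℕ := (2 ^ n - 1) <<< (a + 32)

theorem rangeSel_testBit (a n k : ℕ) (h1 : a ≤ k) (h2 : k < a + n) :
    (rangeSel a n).testBit (32 + k) = true := by
  unfold rangeSel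
  rw [Nat.testBit_shiftLeft, Nat.testBit_two_pow_sub_one]
  simp
  omega

/-- The final step: if the top-level checks cover all vertices, there is no clique of size six
among the first 321 vertices. -/
theorem no_six_clique_of_checks (T : Tr) (hT : okB T = true) (hG : Good T)
    (hchk : ∀ k, k < 321 → ∃ sel, walkTop (noClq T 5) T sel = true ∧
      sel.testBit (32 + k) = true) :
    ∀ s : Finset ℕ, (∀ v ∈ s, v < 321) →
      (∀ u ∈ s, ∀ v ∈ s, u < v → adj u v = true) → s.card ≤ 5 := by
  intro s hs hcl
  rcases Finset.eq_empty_or_nonempty s with hse | hne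
  · rw [hse]; simp
  · have hmin := Finset.min'_mem s hne
    obtain ⟨up, hup, hupv⟩ := hG _ (hs _ hmin)
    obtain ⟨sel, hsel, hbit⟩ := hchk _ (hs _ hmin)
    have hw := walkTop_sound (noClq T 5) T hT sel hsel (s.min' hne, up) hup hbit
    have hcard := Finset.card_erase_of_mem hmin
    have h2 : (s.erase (s.min' hne)).card < 5 := by
      refine noClq_sound T hT hG 5 up hw _ ?_ ?_
      · intro v hv
        have hv1 : v ≠ s.min' hne := Finset.ne_of_mem_erase hv
        have hv2 : v ∈ s := Finset.mem_of_mem_erase hv
        have hlt : s.min' hne < v := lt_of_le_of_ne (Finset.min'_le s v hv2) (Ne.symm hv1)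
        exact ⟨hs v hv2, hupv v hlt (hs v hv2) (hcl _ hmin v hv2 hlt)⟩
      · intro u hu v hv huv
        exact hcl u (Finset.mem_of_mem_erase hu) v (Finset.mem_of_mem_erase hv) huv
    have hpos : 0 < s.card := Finset.card_pos.2 hne
    omega

end Vale.Agent.H71.Clique63
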