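import Vale.Agent.H71.Clique63.Sound
import Vale.Agent.H71.Clique63.Tree

/-!
# The literal tree is consistent with the adjacency data
-/

namespace Vale.Agent.H71.Clique63

theorem tree_ok : okB tree = true := by decide +kernel

theorem tree_leaves : chkLeaves (leaves tree) 0 = true := by decide +kernel

theorem tree_good : Good tree := good_of_chkLeaves tree tree_leaves

end Vale.Agent.H71.Clique63
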